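import Vale.Agent.P042.R2.H757.Spec
import Mathlib.NumberTheory.Primorial
import Mathlib.NumberTheory.Harmonic.Bounds

set_option autoImplicit false

namespace Vale.Agent.P042.H455

open Finset

/-- the primes with binary logarithm `j` -/
theorem block_card (j : ℕ) (B : Finset ℕ) (hB : ∀ p ∈ B, p.Prime ∧ 2 ^ j ≤ p ∧ p < 2 ^ (j + 1)) :
    j * B.card ≤ 4 * 2 ^ j := by
  have h1 : (2 ^ j) ^ B.card ≤ ∏ p ∈ B, p := Finset.pow_card_le_prod B _ _ fun p hp => (hB p hp).2.1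
  have h2 : ∏ p ∈ B, p ≤ primorial (2 ^ (j + 1)) := by
    unfold primorial
    refine Finset.prod_le_prod_of_subset_of_one_le' ?_ ?_
    · intro p hp
      obtain ⟨h3, h4, h5⟩ := hB p hp
      simp only [mem_filter, mem_range]
      exact ⟨by omega, h3⟩
    · intro p hp _
      exact (mem_filter.1 hp).2.one_le
  have h3 : primorial (2 ^ (j + 1)) ≤ 4 ^ (2 ^ (j + 1)) := primorial_le_four_pow _
  have h4 : (2 : ℕ) ^ (j * B.card) ≤ 2 ^ (2 * 2 ^ (j + 1)) := by
    rw [pow_mul, pow_mul 2 2]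
    exact (h1.trans h2).trans h3
  have h5 := (Nat.pow_le_pow_iff_right (by norm_num : 1 < 2)).1 h4
  rw [pow_succ] at h5
  omega

theorem block_sum {j : ℕ} (hj : 1 ≤ j) (B : Finset ℕ)
    (hB : ∀ p ∈ B, p.Prime ∧ 2 ^ j ≤ p ∧ p < 2 ^ (j + 1)) :
    ∑ p ∈ B, (1 : ℝ) / p ≤ 4 / j := by
  have h1 := block_card j B hB
  have h2 : ∑ p ∈ B, (1 : ℝ) / p ≤ B.card • ((1 : ℝ) / 2 ^ j) := by
    refine Finset.sum_le_card_nsmul _ _ _ fun p hp => ?_
    have h3 : (2 : ℝ) ^ j ≤ p := by exact_mod_cast (hB p hp).2.1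
    exact one_div_le_one_div_of_le (by positivity) h3
  refine h2.trans ?_
  have hj' : (0 : ℝ) < j := by exact_mod_cast hj
  rw [nsmul_eq_mul, mul_one_div, div_le_div_iff₀ (by positivity) hj']
  have h4 : ((j * B.card : ℕ) : ℝ) ≤ ((4 * 2 ^ j : ℕ) : ℝ) := by exact_mod_cast h1
  push_cast at h4
  linarith

theorem rowMer : H757.StMer := by
  refine ⟨16, by norm_num, fun N hN => ?_⟩
  set P := (Icc 1 N).filter Nat.Prime with hP
  have hmap : ∀ p ∈ P, Nat.log 2 p ∈ Icc 1 (Nat.log 2 N) := by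
    intro p hp
    obtain ⟨h1, h2⟩ := mem_filter.1 hp
    rw [mem_Icc] at h1 ⊢
    exact ⟨Nat.log_pos (by norm_num) h2.two_le, Nat.log_mono_right h1.2⟩
  rw [← Finset.sum_fiberwise_of_maps_to hmap]
  have hlogpos : 0 < Nat.log 2 N := Nat.log_pos (by norm_num) (by omega)
  have h1 : ∑ j ∈ Icc 1 (Nat.log 2 N), ∑ p ∈ P.filter (fun p => Nat.log 2 p = j), (1 : ℝ) / p ≤
      ∑ j ∈ Icc 1 (Nat.log 2 N), 4 / (j : ℝ) := by
    refine Finset.sum_le_sum fun j hj => ?_
    refine block_sum (mem_Icc.1 hj).1 _ fun p hp => ?_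
    obtain ⟨h2, h3⟩ := mem_filter.1 hp
    have h4 := (mem_filter.1 h2).2
    refine ⟨h4, ?_, ?_⟩
    · rw [← h3]; exact Nat.pow_log_le_self 2 h4.ne_zero
    · rw [← h3]; exact Nat.lt_pow_succ_log_self (by norm_num) p
  refine h1.trans ?_
  have h2 : ∑ j ∈ Icc 1 (Nat.log 2 N), 4 / (j : ℝ) = 4 * ((harmonic (Nat.log 2 N) : ℚ) : ℝ) := by
    rw [harmonic_eq_sum_Icc]
    push_cast
    rw [Finset.mul_sum]
    refine Finset.sum_congr rfl fun j _ => ?_
    rw [div_eq_mul_inv]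
  rw [h2]
  have h3 : ((harmonic (Nat.log 2 N) : ℚ) : ℝ) ≤ 1 + Real.log (Nat.log 2 N) :=
    harmonic_le_one_add_log _
  have hN0 : (0 : ℝ) < N := by exact_mod_cast (by omega : 0 < N)
  have h4 : (Nat.log 2 N : ℝ) * Real.log 2 ≤ Real.log N := by
    rw [← Real.log_pow]
    refine Real.log_le_log (by positivity) ?_
    exact_mod_cast Nat.pow_log_le_self 2 (by omega : N ≠ 0)
  have h5 : (Nat.log 2 N : ℝ) ≤ 2 * Real.log N := by
    have h6 : (1 : ℝ) / 2 < Real.log 2 := by linarith [Real.log_two_gt_d9]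
    have h7 : (0 : ℝ) < Nat.log 2 N := by exact_mod_cast hlogpos
    nlinarith
  have h8 : Real.exp 1 ≤ N := by
    have h9 : Real.exp 1 < 3 := by linarith [Real.exp_one_lt_d9]
    have h10 : (3 : ℝ) ≤ N := by exact_mod_cast hN
    linarith
  have h11 : 1 ≤ Real.log N := by rwa [Real.le_log_iff_exp_le hN0]
  have h12 : 0 ≤ Real.log (Real.log N) := Real.log_nonneg h11
  have h13 : Real.log (Nat.log 2 N) ≤ 1 + Real.log (Real.log N) := by
    have h14 : Real.log (Nat.log 2 N) ≤ Real.log (2 * Real.log N) :=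
      Real.log_le_log (by exact_mod_cast hlogpos) h5
    rw [Real.log_mul (by norm_num) (by positivity)] at h14
    linarith [Real.log_two_lt_d9]
  linarith

end Vale.Agent.P042.H455
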