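import Vale.Agent.P042.R2.H757.Spec
import Mathlib.Analysis.SpecialFunctions.Pow.Asymptotics

set_option autoImplicit false

namespace Vale.Agent.P042.H455

open Filter

theorem num_bound (θ K ε : ℝ) (h0 : 0 < θ) (hθ : θ < 1) (hK : 0 < K) (hε : 0 < ε) :
    ∃ C : ℝ, ∀ L : ℝ, 1 ≤ L → K * (L ^ θ + 5) * (1 + Real.log L) ≤ ε * L + C := by
  obtain ⟨φ, h1, h2⟩ := exists_between hθ
  -- `log L ≤ c L ^ (φ - θ)`, `L ^ φ ≤ ε' L + C'`
  have hpos : 0 < φ - θ := by linarith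
  have hlog : ∀ L : ℝ, 1 ≤ L → 1 + Real.log L ≤ (1 + 1 / (φ - θ)) * L ^ (φ - θ) := by
    intro L hL
    have e1 := Real.log_le_rpow_div (by linarith : (0 : ℝ) ≤ L) hpos
    have e2 : 1 ≤ L ^ (φ - θ) := Real.one_le_rpow hL hpos.le
    have e3 : L ^ (φ - θ) / (φ - θ) = 1 / (φ - θ) * L ^ (φ - θ) := by ring
    rw [e3] at e1
    nlinarith
  set D : ℝ := K * 6 * (1 + 1 / (φ - θ)) with hD
  have hD0 : 0 < D := by positivity
  have hmain : ∀ L : ℝ, 1 ≤ L → K * (L ^ θ + 5) * (1 + Real.log L) ≤ D * L ^ φ := by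
    intro L hL
    have hL0 : (0 : ℝ) < L := by linarith
    have e1 : 1 ≤ L ^ θ := Real.one_le_rpow hL h0.le
    have e2 : K * (L ^ θ + 5) ≤ K * (6 * L ^ θ) := mul_le_mul_of_nonneg_left (by linarith) hK.le
    have e3 : L ^ φ = L ^ θ * L ^ (φ - θ) := by rw [← Real.rpow_add hL0]; ring_nf
    have e4 : 0 ≤ 1 + Real.log L := by linarith [Real.log_nonneg hL]
    calc K * (L ^ θ + 5) * (1 + Real.log L) ≤ K * (6 * L ^ θ) * ((1 + 1 / (φ - θ)) * L ^ (φ - θ)) :=
          mul_le_mul e2 (hlog L hL) e4 (by positivity)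
      _ = D * L ^ φ := by rw [e3, hD]; ring
  -- a threshold
  have hlim : ∀ᶠ L : ℝ in atTop, D * L ^ φ ≤ ε * L := by
    have e1 := tendsto_rpow_neg_atTop (by linarith : 0 < 1 - φ)
    have e2 : ∀ᶠ L : ℝ in atTop, L ^ (-(1 - φ)) < ε / D :=
      e1.eventually (gt_mem_nhds (by positivity))
    filter_upwards [e2, eventually_ge_atTop (1 : ℝ)] with L h3 h4
    have hL0 : (0 : ℝ) < L := by linarith
    have h5 : L ^ φ = L * L ^ (-(1 - φ)) := by
      nth_rewrite 2 [← Real.rpow_one L]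
      rw [← Real.rpow_add hL0]
      ring_nf
    rw [h5]
    calc D * (L * L ^ (-(1 - φ))) ≤ D * (L * (ε / D)) :=
          mul_le_mul_of_nonneg_left (mul_le_mul_of_nonneg_left h3.le hL0.le) hD0.le
      _ = ε * L := by field_simp
  obtain ⟨L0, hL0⟩ := eventually_atTop.1 hlim
  refine ⟨D * (max L0 1) ^ φ, fun L hL => ?_⟩
  refine (hmain L hL).trans ?_
  have hφ : 0 ≤ φ := by linarith
  rcases le_total L0 L with h | h
  · have := hL0 L h
    have h5 : 0 ≤ D * (max L0 1) ^ φ := by positivity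
    linarith
  · have h6 : L ^ φ ≤ (max L0 1) ^ φ :=
      Real.rpow_le_rpow (by linarith) (h.trans (le_max_left _ _)) hφ
    have h7 : D * L ^ φ ≤ D * (max L0 1) ^ φ := mul_le_mul_of_nonneg_left h6 hD0.le
    have h8 : 0 ≤ ε * L := by positivity
    linarith

theorem rowNum : H757.StNum := by
  intro k hk K ε hK hε
  have hk' : (2 : ℝ) ≤ k := by exact_mod_cast hk
  obtain ⟨C, hC⟩ := num_bound ((2 * k + 1 : ℝ) / (2 * k + 2)) K ε (by positivity)
    (by rw [div_lt_one (by positivity)]; linarith) hK hε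
  refine ⟨Real.exp C, Real.exp_pos _, fun N hN => ?_⟩
  have hN0 : (0 : ℝ) < N := by exact_mod_cast (by omega : 0 < N)
  have h8 : Real.exp 1 ≤ N := by
    have h9 : Real.exp 1 < 3 := by linarith [Real.exp_one_lt_d9]
    have h10 : (3 : ℝ) ≤ N := by exact_mod_cast hN
    linarith
  have h11 : 1 ≤ Real.log N := by rwa [Real.le_log_iff_exp_le hN0]
  rw [Real.rpow_def_of_pos hN0, ← Real.exp_add, Real.exp_le_exp]
  have := hC (Real.log N) h11
  linarith

end Vale.Agent.P042.H455
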